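import Claimed.Agent.R322.Pack039

/-!
# Row 322, Tube/Geom/LiftReg: regularity of the lift `J_z X` in the tube
-/

set_option autoImplicit false

open scoped ENNReal ContDiff Topology
open MeasureTheory

namespace Claimed.Agent.R322.Tube

variable {m n : ℕ} {u : E m → E n} {κ₂ : ℝ}

theorem contDiff_tanF {k : ℕ∞ω} (hk : k ≤ 3) (hu : ContDiff ℝ 4 u) {Xc : E m → E m}
    (hXc : ContDiff ℝ k Xc) : ContDiff ℝ k (tanF u Xc) := by
  unfold tanF
  exact ((contDiff_dF_Du (k := 3) hu).of_le hk).clm_apply hXc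

/-- lifts of `C^k` fields, `k ≤ 2`, are `C^k` in the tube. -/
theorem contDiffAt_lift (hu : Geo κ₂ u) {h : ℝ} (hh : h ≤ 2 / 9) {X : E (m + n)}
    (hX : X ∈ Tub u h) {k : ℕ∞ω} (hk : k ≤ 2) {Xc : E m → E m} (hXc : ContDiff ℝ k Xc) :
    ContDiffAt ℝ k (lift u Xc) X := by
  have h1 : ContDiffAt ℝ k (npr u) X :=
    (npr_local hu hh hX).1.of_le (hk.trans (by norm_num))
  unfold lift
  exact ((contDiffAt_Jz hu hh hX).of_le hk).clm_apply
    ((contDiff_tanF (hk.trans (by norm_num)) hu.smooth hXc).contDiffAt.comp X h1)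

theorem contDiffOn_lift (hu : Geo κ₂ u) {h : ℝ} (hh : h ≤ 2 / 9) {k : ℕ∞ω} (hk : k ≤ 2)
    {Xc : E m → E m} (hXc : ContDiff ℝ k Xc) : ContDiffOn ℝ k (lift u Xc) (Tub u h) :=
  fun _ hX => (contDiffAt_lift hu hh hX hk hXc).contDiffWithinAt

end Claimed.Agent.R322.Tube
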